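import Crest.Agent.R330.BL.Gen
import Crest.Agent.R203.AFlow

/-! # Row 330, block BL: Fourier decomposition under a circle action -/

set_option autoImplicit false
set_option linter.unusedSectionVars false
set_option linter.unusedSimpArgs false

noncomputable section

open MeasureTheory Filter Topology
open scoped InnerProductSpace ContDiff Matrix

namespace Crest.Agent.R330.BL

variable {A B F : Type} [NormedAddCommGroup A] [InnerProductSpace ℝ A] [FiniteDimensional ℝ A]
  [MeasurableSpace A] [BorelSpace A] [NormedAddCommGroup B] [InnerProductSpace ℝ B] [FiniteDimensional ℝ B]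
  [MeasurableSpace B] [BorelSpace B]
  [NormedAddCommGroup F] [InnerProductSpace ℂ F] [FiniteDimensional ℂ F]

/-- characters of the circle -/
def ch (k : ℤ) (t : ℝ) : ℂ := Complex.exp (2 * Real.pi * Complex.I * k * t)

theorem ch_smooth (k : ℤ) : ContDiff ℝ ∞ (ch k) := (contDiff_const.mul Complex.ofRealCLM.contDiff).cexp

theorem ch_add (k : ℤ) (s t : ℝ) : ch k (s + t) = ch k s * ch k t := by
  rw [ch, ch, ch, ← Complex.exp_add, ← mul_add, Complex.ofReal_add]

theorem ch_one (k : ℤ) : ch k 1 = 1 := by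
  rw [ch, Complex.ofReal_one, mul_one, mul_comm, Complex.exp_int_mul_two_pi_mul_I]

theorem ch_neg (k : ℤ) (s : ℝ) : ch k s * ch (-k) s = 1 := by
  simp [ch, ← Complex.exp_add]

/-- `x` is the `k`-th Fourier coefficient of `φ` -/
def Av (k : ℤ) (φ : ℝ → F) (x : F) : Prop := Continuous φ ∧ ∫ t in (0 : ℝ)..1, ch (-k) t • φ t = x

theorem Av.int {k : ℤ} {φ : ℝ → F} {x : F} (h : Av k φ x) : IntervalIntegrable (fun t => ch (-k) t • φ t) volume 0 1 :=
  ((ch_smooth _).continuous.smul h.1).intervalIntegrable _ _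

theorem Av.add {k : ℤ} {φ ψ : ℝ → F} {x y : F} (h : Av k φ x) (h' : Av k ψ y) : Av k (fun t => φ t + ψ t) (x + y) :=
  ⟨h.1.add h'.1, by simp only [smul_add, intervalIntegral.integral_add h.int h'.int, h.2, h'.2]⟩

theorem Av.sum {ι : Type} [Fintype ι] {k : ℤ} {φ : ι → ℝ → F} {x : ι → F} (h : ∀ i, Av k (φ i) (x i)) :
    Av k (fun t => ∑ i, φ i t) (∑ i, x i) :=
  ⟨continuous_finsetSum _ fun i _ => (h i).1, by
    simp only [Finset.smul_sum, intervalIntegral.integral_finsetSum fun i _ => (h i).int, (h _).2]⟩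

theorem Av.map {k : ℤ} {φ : ℝ → F} {x : F} (h : Av k φ x) (T : F →L[ℂ] F) : Av k (fun t => T (φ t)) (T x) :=
  ⟨T.continuous.comp h.1, by simp only [← map_smul, T.intervalIntegral_comp_comm h.int, h.2]⟩

theorem Av.smul {k : ℤ} {φ : ℝ → F} {x : F} (h : Av k φ x) (c : ℂ) : Av k (fun t => c • φ t) (c • x) :=
  h.map (c • 1)

theorem Av.eq {k : ℤ} {φ ψ : ℝ → F} {x y : F} (h : Av k φ x) (h' : Av k ψ y) (e : ∀ t, φ t = ψ t) : x = y := by
  rw [← h.2, ← h'.2, funext e]

theorem av_parseval {φ : ℝ → F} {x : ℤ → F} (h : ∀ k, Av k φ (x k)) :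
    HasSum (fun k => ‖x k‖ ^ 2) (∫ t in (0 : ℝ)..1, ‖φ t‖ ^ 2) := by
  have hc : ∀ b, Continuous fun t => ⟪stdOrthonormalBasis ℂ F b, φ t⟫_ℂ := fun b => continuous_const.inner (h 0).1
  have := hasSum_sum (s := Finset.univ) fun b _ => hasSum_sq_fourierCoeffOn zero_lt_one
    ((memLp_two_iff_integrable_sq_norm (hc b).aestronglyMeasurable).2 ((hc b).norm.pow 2).integrableOn_Ioc)
  simp only [sub_zero, inv_one, one_smul] at this
  rw [← intervalIntegral.integral_finsetSum fun b _ => ((hc b).norm.fun_pow 2).intervalIntegrable _ _] at this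
  simp only [OrthonormalBasis.sum_sq_norm_inner_right] at this
  convert this using 2 with k
  rw [← (stdOrthonormalBasis ℂ F).sum_sq_norm_inner_right]
  refine Finset.sum_congr rfl fun b _ => ?_
  rw [fourierCoeffOn_eq_integral, ← (h k).2, ← innerSL_apply_apply, ← (innerSL ℂ _).intervalIntegral_comp_comm (h k).int]
  simp only [fourier_coe_apply]
  simp [ch]

/-- a circle action -/
structure Circ (B F : Type) [NormedAddCommGroup B] [NormedSpace ℝ B] [NormedAddCommGroup F] [NormedSpace ℂ F] where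
  R : ℝ → B →L[ℝ] B
  U : ℝ → F →L[ℂ] F
  R_add : ∀ s t x, R (s + t) x = R s (R t x)
  R_one : ∀ x, R 1 x = x
  R_norm : ∀ t x, ‖R t x‖ = ‖x‖
  R_smooth : ContDiff ℝ ∞ R
  U_add : ∀ s t x, U (s + t) x = U s (U t x)
  U_one : ∀ x, U (-1) x = x
  U_norm : ∀ t x, ‖U t x‖ = ‖x‖
  U_smooth : ContDiff ℝ ∞ U

namespace Circ

variable (c : Circ B F)

/-- the action on functions -/
def tw (f : A × B → F) (t : ℝ) (q : A × B) : F := c.U (-t) (f (q.1, c.R t q.2))

/-- Fourier components -/
def comp (k : ℤ) (f : A × B → F) (q : A × B) : F := ∫ t in (0 : ℝ)..1, ch (-k) t • c.tw f t q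

theorem tw_cont {f : A × B → F} (hf : Continuous f) : Continuous fun p : ℝ × A × B => c.tw f p.1 p.2 := by
  have h1 := c.R_smooth.continuous
  have h2 := c.U_smooth.continuous
  unfold tw
  fun_prop

theorem tw_smooth {f : A × B → F} (hf : ContDiff ℝ ∞ f) : ContDiff ℝ ∞ fun p : ℝ × A × B => c.tw f p.1 p.2 :=
  contDiff_capp (c.U_smooth.comp contDiff_fst.neg) (hf.comp (contDiff_snd.fst.prodMk
    ((c.R_smooth.comp contDiff_fst).clm_apply contDiff_snd.snd)))

theorem tw_diff {f : A × B → F} (hf : ContDiff ℝ ∞ f) (t : ℝ) : Differentiable ℝ (c.tw f t) :=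
  ((c.tw_smooth hf).comp (contDiff_prodMk_right t)).differentiable (by simp)

theorem d_tw {f : A × B → F} (hf : ContDiff ℝ ∞ f) (t : ℝ) (q v : A × B) :
    fderiv ℝ (c.tw f t) q v = c.U (-t) (fderiv ℝ f (q.1, c.R t q.2) (v.1, c.R t v.2)) :=
  DFunLike.congr_fun (((c.U (-t)).restrictScalars ℝ).hasFDerivAt.comp q (HasFDerivAt.comp
    (f := fun q : A × B => (q.1, c.R t q.2)) q (hf.differentiable (by simp) _).hasFDerivAt
    ((ContinuousLinearMap.id ℝ A).prodMap (c.R t)).hasFDerivAt)).fderiv v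

theorem comp_smooth (k : ℤ) {f : A × B → F} (hf : ContDiff ℝ ∞ f) : ContDiff ℝ ∞ (c.comp k f) :=
  R203.contDiff_param_integral (f := fun p : ℝ × A × B => ch (-k) p.1 • c.tw f p.1 p.2)
    (((ch_smooth _).comp contDiff_fst).smul (c.tw_smooth hf))

theorem av (k : ℤ) {f : A × B → F} (hf : Continuous f) (q : A × B) : Av k (fun t => c.tw f t q) (c.comp k f q) :=
  ⟨(c.tw_cont hf).comp (Continuous.prodMk_left q), rfl⟩

theorem av_d (k : ℤ) {f : A × B → F} (hf : ContDiff ℝ ∞ f) (q v : A × B) :
    Av k (fun t => fderiv ℝ (c.tw f t) q v) (fderiv ℝ (c.comp k f) q v) := by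
  constructor
  · have h1 := c.R_smooth.continuous
    have h2 := c.U_smooth.continuous
    have h3 := hf.continuous_fderiv (by simp)
    simp only [c.d_tw hf]
    fun_prop
  refine Eq.trans (intervalIntegral.integral_congr fun t _ => ?_) (fderiv_int
    (f := fun p : ℝ × A × B => ch (-k) p.1 • c.tw f p.1 p.2) (((ch_smooth _).comp contDiff_fst).smul (c.tw_smooth hf))
    q v).symm
  exact (DFunLike.congr_fun ((c.tw_diff hf t q).hasFDerivAt.const_smul (ch (-k) t)).fderiv v).symm

theorem comp_flow (k : ℤ) {f : A × B → F} (hf : Continuous f) (s : ℝ) (z : A) (l : B) :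
    c.comp k f (z, c.R s l) = ch k s • c.U s (c.comp k f (z, l)) := by
  have h1 : Function.Periodic (fun t => ch (-k) t • c.tw f t (z, l)) 1 := fun t => by
    simp only [tw, ch_add, ch_one, mul_one, c.R_add, c.R_one, neg_add, c.U_add, c.U_one]
  have h2 := (intervalIntegral.integral_comp_add_right (a := 0) (b := 1) _ s).trans (by
    rw [zero_add, add_comm 1, h1.intervalIntegral_add_eq s 0, zero_add])
  rw [comp, comp, ← h2, ← (c.U s).intervalIntegral_comp_comm, ← intervalIntegral.integral_smul]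
  · refine intervalIntegral.integral_congr fun t _ => ?_
    simp only [tw, map_smul, smul_smul, ← c.U_add, ← c.R_add, ch_add]
    rw [mul_left_comm, ch_neg, mul_one, show s + -(t + s) = -t by ring]
  · exact ((((ch_smooth _).continuous.smul (c.av k hf (z, l)).1)).comp (continuous_add_const s)).intervalIntegrable _ _

theorem comp_supp (k : ℤ) {f : A × B → F} {K : Set (A × B)} (hK : IsClosed K) (h : tsupport f ⊆ K)
    (hi : ∀ t q, (q.1, c.R t q.2) ∈ K → q ∈ K) : tsupport (c.comp k f) ⊆ K :=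
  closure_minimal (fun q hq => by_contra fun hq' => hq (by
    simp [comp, tw, fun t => image_eq_zero_of_notMem_tsupport fun h' => hq' (hi t q (h h'))])) hK

theorem comp_core (k : ℤ) {f : A × B → F} (hf : Core f) : Core (c.comp k f) := by
  obtain ⟨r, hr⟩ := hf.2.isBounded.subset_closedBall 0
  exact ⟨c.comp_smooth k hf.1, (isCompact_closedBall 0 r).of_isClosed_subset (isClosed_tsupport _)
    (c.comp_supp k Metric.isClosed_closedBall hr fun t q hq => by simpa [Prod.norm_def, c.R_norm] using hq)⟩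

theorem parseval {u : A × B → F} (hu : Continuous u) {W : A × B → ℝ} (h0 : ∀ q, 0 ≤ W q) (hm : Measurable W)
    (hW : ∀ t q, W (q.1, c.R t q.2) = W q) (hi : Integrable fun q => W q * ‖u q‖ ^ 2) :
    HasSum (fun k : ℤ => ∫ q, W q * ‖c.comp k u q‖ ^ 2) (∫ q, W q * ‖u q‖ ^ 2) := by
  have h1 : ∀ q, HasSum (fun k => W q * ‖c.comp k u q‖ ^ 2) (∫ t in Set.Ioc (0 : ℝ) 1, W q * ‖c.tw u t q‖ ^ 2) :=
    fun q => by
      rw [integral_const_mul, ← intervalIntegral.integral_of_le zero_le_one]
      exact (av_parseval fun k => c.av k hu q).mul_left _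
  have h2 : ∀ t, MeasurePreserving (fun q : A × B => (q.1, c.R t q.2)) := fun t =>
    (MeasurePreserving.id volume).prod (LinearIsometry.toLinearIsometryEquiv ⟨(c.R t).toLinearMap, c.R_norm t⟩
      rfl).measurePreserving
  have h3 : ∀ t, (fun q => W q * ‖c.tw u t q‖ ^ 2) = (fun q => W q * ‖u q‖ ^ 2) ∘ fun q : A × B => (q.1, c.R t q.2) :=
    fun t => funext fun q => by simp only [tw, c.U_norm, Function.comp, hW]
  have h4 : ∀ t, ∫ q, W q * ‖c.tw u t q‖ ^ 2 = ∫ q, W q * ‖u q‖ ^ 2 := fun t => by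
    have := integral_map (h2 t).measurable.aemeasurable ((h2 t).map_eq.symm ▸ hi.1)
    rw [(h2 t).map_eq] at this
    rw [h3, this]
    rfl
  have h5 : Integrable (Function.uncurry fun q t => W q * ‖c.tw u t q‖ ^ 2)
      ((volume : Measure (A × B)).prod (volume.restrict (Set.Ioc (0 : ℝ) 1))) := by
    refine (integrable_prod_iff' ((hm.comp measurable_fst).mul (((c.tw_cont hu).comp
      continuous_swap).norm.pow 2).measurable).aestronglyMeasurable).2 ⟨Eventually.of_forall fun t => ?_, ?_⟩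
    · exact (h3 t).symm ▸ (h2 t).integrable_comp_of_integrable hi
    · refine (integrable_const (∫ q, W q * ‖u q‖ ^ 2)).congr (Eventually.of_forall fun t => (h4 t).symm.trans ?_)
      exact integral_congr_ae (Eventually.of_forall fun q =>
        (Real.norm_of_nonneg (mul_nonneg (h0 _) (sq_nonneg _))).symm)
  have h6 := integral_integral_swap h5
  have h7 : ∀ k q, 0 ≤ W q * ‖c.comp k u q‖ ^ 2 := fun k q => mul_nonneg (h0 _) (sq_nonneg _)
  have h8 : ∀ k, Integrable fun q => W q * ‖c.comp k u q‖ ^ 2 := fun k => h5.integral_prod_left.mono'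
    (hm.mul ((intervalIntegral.continuous_parametric_intervalIntegral_of_continuous' (f := fun q t => ch (-k) t •
      c.tw u t q) (((ch_smooth _).continuous.comp continuous_snd).smul ((c.tw_cont hu).comp continuous_swap))
      0 1).norm.pow 2).measurable).aestronglyMeasurable (Eventually.of_forall fun q =>
      (Real.norm_of_nonneg (h7 k q)).trans_le (le_hasSum (h1 q) k fun j _ => h7 j q))
  have h9 := hasSum_integral_of_summable_integral_norm h8 (summable_of_sum_le (fun k => integral_nonneg fun q =>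
    norm_nonneg _) fun s => by
      simp only [Real.norm_of_nonneg (h7 _ _), ← integral_finsetSum s fun k _ => h8 k]
      exact integral_mono (integrable_finsetSum s fun k _ => h8 k) h5.integral_prod_left fun q =>
        sum_le_hasSum s (fun j _ => h7 j q) (h1 q))
  simpa [(h1 _).tsum_eq, h6, h4] using h9

end Circ

end Crest.Agent.R330.BL
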