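import Crest.Agent.R330.BL.Cm
import Crest.Agent.R330.BL.Cross
import Crest.Agent.R330.BL.Four

/-! # Row 330, block BL: Fourier components of effective wave functions -/

set_option autoImplicit false
set_option linter.unusedSectionVars false
set_option linter.unusedSimpArgs false

noncomputable section

open MeasureTheory Filter Topology NormedSpace
open scoped InnerProductSpace ContDiff Matrix
open Crest.MathPhysics.MatrixQM (GammaNine)

namespace Crest.Agent.R330.BL

variable {E Z L H F : Type}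
  [NormedAddCommGroup E] [InnerProductSpace ℝ E] [FiniteDimensional ℝ E]
  [NormedAddCommGroup Z] [InnerProductSpace ℝ Z] [FiniteDimensional ℝ Z]
  [NormedAddCommGroup L] [InnerProductSpace ℝ L] [FiniteDimensional ℝ L]
  [NormedAddCommGroup H] [InnerProductSpace ℝ H] [FiniteDimensional ℝ H]
  [NormedAddCommGroup F] [InnerProductSpace ℂ F] [FiniteDimensional ℂ F]
  [MeasurableSpace E] [BorelSpace E] [MeasurableSpace Z] [BorelSpace Z]
  [MeasurableSpace L] [BorelSpace L] [MeasurableSpace H] [BorelSpace H]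
  {P : Type} [Fintype P] {𝔤 : Lie E}

theorem exp_add' {a b : F →L[ℂ] F} (h : Commute a b) : exp (a + b) = exp a * exp b :=
  exp_add_of_commute_of_mem_ball (𝕂 := ℂ) h ((expSeries_radius_eq_top ℂ (F →L[ℂ] F)).symm ▸ edist_lt_top _ _)
    ((expSeries_radius_eq_top ℂ (F →L[ℂ] F)).symm ▸ edist_lt_top _ _)

theorem exp_wt (S : F →L[ℂ] F) (t c : ℂ) : exp (t • (S + c • 1)) = Complex.exp (t * c) • exp (t • S) := by
  rw [smul_add, exp_add' (((Commute.one_right _).smul_right _).smul_right _), smul_smul, ← Algebra.algebraMap_eq_smul_one,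
    ← algebraMap_exp_comm, Complex.exp_eq_exp_ℂ, ← Algebra.commutes, ← Algebra.smul_def]

/-- the light rotation flow -/
def circ (C : Cl (Th L) F) (G : GammaNine) : Circ (X L) F where
  R t := rexp' ((2 * Real.pi * t) • mat V0)
  U t := exp (((2 * Real.pi * t : ℝ) : ℂ) • C.S (mat (sig G V0)))
  R_add s t x := by rw [mul_add, rexp'_add_smul]
  R_one x := by rw [mul_one, (V0_period C G).1]
  R_norm t x := norm_rexp' (fun u v => by
    simp only [LinearMap.smul_apply, inner_smul_left, inner_smul_right, isSkew_mat V0_skew u v, conj_trivial, mul_neg]) x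
  R_smooth := by
    simp only [rexp', map_smul]
    exact (contDiff_iff_contDiffAt.2 fun x => (exp_analytic (𝕂 := ℝ) x).contDiffAt).comp (by fun_prop)
  U_add s t x := by
    rw [mul_add, Complex.ofReal_add, add_smul, exp_add' (((Commute.refl _).smul_right _).smul_left _)]
    rfl
  U_one x := by
    have := exp_add' (a := ((2 * Real.pi * -1 : ℝ) : ℂ) • C.S (mat (sig G V0)))
      (b := ((2 * Real.pi : ℝ) : ℂ) • C.S (mat (sig G V0))) (((Commute.refl _).smul_right _).smul_left _)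
    rw [(V0_period C G).2, mul_one, ← add_smul, ← Complex.ofReal_add] at this
    rw [← this]
    simp
  U_norm t x := by simpa using C.norm_exp_S (isSkew_mat (sig_skew G V0_skew)) (2 * Real.pi * t) 0 x
  U_smooth := ((contDiff_iff_contDiffAt.2 fun x => (exp_analytic (𝕂 := ℂ) x).contDiffAt).restrict_scalars ℝ).comp
    ((Complex.ofRealCLM.contDiff.comp (contDiff_const.mul contDiff_id)).smul contDiff_const)

theorem U_inv (C : Cl (Th L) F) (G : GammaNine) {s t : ℝ} (h : s + t = 0) (x : F) :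
    (circ C G).U s ((circ C G).U t x) = x := by
  rw [← Circ.U_add, h]
  simp [circ]

theorem U_comm {C : Cl (Th L) F} {G : GammaNine} {T : F →L[ℂ] F}
    (h : T * C.S (mat (sig G V0)) = C.S (mat (sig G V0)) * T) (t : ℝ) (x : F) :
    (circ C G).U t (T x) = T ((circ C G).U t x) :=
  (DFunLike.congr_fun (Commute.exp_right (Commute.smul_right h _)).eq x).symm

theorem R_comm (C : Cl (Th L) F) (G : GammaNine) {T : X L →ₗ[ℝ] X L} (h : mat V0 ∘ₗ T = T ∘ₗ mat V0) (t : ℝ) (x : X L) :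
    (circ C G).R t (T x) = T ((circ C G).R t x) :=
  (rexp'_intertwine T _ _ (by rw [LinearMap.comp_smul, LinearMap.smul_comp, h]) x).symm

variable (D : Levi 𝔤 Z L H P) (C : Cl (Th E) F) (σ : Spn)

/-- centre of mass supercharge -/
abbrev Qc (ε : ℝ) : (X Z × X L → F) → X Z × X L → F := Q1 (D.CZ C) (cmap σ.G σ.s) (wc σ ε)

/-- light supercharge -/
abbrev Ql (ε : ℝ) : (X Z × X L → F) → X Z × X L → F := Q2 (D.CL C) (cmap σ.G σ.s) (wd D.𝔩 σ ε fun _ => 0)

theorem Qlight_eq (ε : ℝ) (f : X Z × X L → F) (q : X Z × X L) :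
    D.Qlight C σ ε f q = D.Pi C σ.G q.1 (Qc D C σ ε f q + Ql D C σ ε f q) := rfl

theorem U_Pi (G : GammaNine) (z : X Z) (t : ℝ) (x : F) :
    (circ (D.CL C) G).U t (D.Pi C G z x) = D.Pi C G z ((circ (D.CL C) G).U t x) :=
  U_comm ((D.CL C).comm_S _ (.inl (D.Pi_comm_L C G z)) _) t x

theorem Qlight_tw (ε : ℝ) {f : X Z × X L → F} (hf : ContDiff ℝ ∞ f) (t : ℝ) (q : X Z × X L) :
    D.Qlight C σ ε ((circ (D.CL C) σ.G).tw f t) q = (circ (D.CL C) σ.G).tw (D.Qlight C σ ε f) t q := by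
  have hd := hf.differentiable (by simp)
  have h1 := compat_Qd D.𝔩 (D.CL C) σ (𝒱 := neut) (fun p hp => by rw [hp]) ε (f := fun _ => 0) (by simp) _
    (.inr ⟨_, rfl, 2 * Real.pi * t, rfl⟩)
  simp only [Complex.ofReal_zero, zero_mul, zero_smul, add_zero] at h1
  have h2 := dirac_conj (D.CL C) _ _ ((circ (D.CL C) σ.G).R t) ((circ (D.CL C) σ.G).U t) ((circ (D.CL C) σ.G).R_norm t)
    h1.1 h1.2 (φ := fun l => (circ (D.CL C) σ.G).tw f t (q.1, l)) (ψ := fun l => f (q.1, l))
    (((circ (D.CL C) σ.G).tw_diff hf t).comp (by fun_prop)) (hd.comp (by fun_prop))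
    (fun l => (U_inv _ _ (add_neg_cancel t) _).symm) q.2
  have h3 := fun a => U_comm (G := σ.G) ((D.CL C).comm_S _ (.inr (D.θ_anti_ZL C a)) _)
  rw [Circ.tw, Qlight_eq, Qlight_eq, U_Pi, map_add (Circ.U _ _)]
  refine congrArg _ (congrArg₂ (· + ·) ?_ ((U_inv _ _ (neg_add_cancel t) _).symm.trans (congrArg _ h2.symm)))
  simp only [Qc, Q1_eq _ _ _ hd, Q1_eq _ _ _ ((circ (D.CL C) σ.G).tw_diff hf t), Circ.d_tw _ hf, map_add, map_sum,
    ContinuousLinearMap.map_smul, h3, map_zero, Circ.tw]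

theorem Qlight_comp (ε : ℝ) {f : X Z × X L → F} (hf : ContDiff ℝ ∞ f) (h : Continuous (D.Qlight C σ ε f)) (k : ℤ)
    (q : X Z × X L) :
    D.Qlight C σ ε ((circ (D.CL C) σ.G).comp k f) q = (circ (D.CL C) σ.G).comp k (D.Qlight C σ ε f) q := by
  set c := circ (D.CL C) σ.G
  have hd := (c.comp_smooth k hf).differentiable (by simp)
  rw [Qlight_eq, Qc, Ql, Q1_eq _ _ _ hd, Q2_eq _ _ _ hd]
  refine ((((Av.sum fun i => ((c.av_d k hf q _).map _).smul _).add ((c.av k hf.continuous q).map _)).add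
    ((Av.sum fun i => ((c.av_d k hf q _).map _).smul _).add ((c.av k hf.continuous q).map _))).map _).eq
    (c.av k h q) fun t => ?_
  rw [← Qlight_tw D C σ ε hf, Qlight_eq, Qc, Ql, Q1_eq _ _ _ (c.tw_diff hf t), Q2_eq _ _ _ (c.tw_diff hf t)]

theorem eff_comp {G : GammaNine} {𝒱 : Wts} {κ θ R k : ℝ} {f : X Z × X L → F} (hf : D.Eff C G 𝒱 κ θ R f)
    (hk : (V0, k) ∈ 𝒱) (j : ℤ) : D.Eff C G {(V0, k)} κ θ R ((circ (D.CL C) G).comp j f) ∧
      ∀ z l, RotAt (D.CL C) G V0 j (fun l => (circ (D.CL C) G).comp j f (z, l)) l := by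
  set c := circ (D.CL C) G
  obtain ⟨h1, h2, h3, h4, h5⟩ := hf
  have hc := h1.1.continuous
  have hd := (c.comp_smooth j h1.1).differentiable (by simp)
  have hS := isSkew_mat (E := L) (sig_skew G V0_skew)
  refine ⟨⟨c.comp_core j h1, fun q => ((c.av j hc q).map _).eq (c.av j hc q) fun t => ?_, fun z l ξ => ?_, ?_, ?_⟩,
    fun z => (wtAt_iff_flow _ _ _ (hd.comp (by fun_prop))).2 fun t l => ?_⟩
  · rw [Circ.tw, ← U_Pi]
    exact congrArg _ (h2 (q.1, c.R t q.2))
  · refine (d_snd hd (z, l) _).trans ((c.av_d j h1.1 _ _).eq (((c.av j hc _).map _).add ((c.av j hc _).smul _))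
      fun t => ?_)
    rw [c.d_tw h1.1, R_comm _ _ (mat_lift _ _), ← d_snd (h1.1.differentiable (by simp)), h3 z _ ξ, map_add, map_smul,
      U_comm (sub_eq_zero.1 (by
        rw [(D.CL C).S_lie (isSkew_lift (D.𝔩.isSkew_br ξ)) hS, mat_lift, sub_self, Cl.S_zero]))]
    rfl
  · rintro _ rfl q
    refine (c.av_d j h1.1 _ _).eq (((c.av j hc _).map _).add ((c.av j hc _).smul _)) fun t => ?_
    rw [c.d_tw h1.1, R_comm _ _ rfl, h4 _ hk (q.1, _), map_add, map_smul, U_comm]
    · rfl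
    rw [D.S_mat, add_mul, add_mul, mul_add, mul_add, (D.CL C).comm_S _ (.inl fun v => ((D.CZ C).comm_S _
      (.inr fun a => by rw [D.θ_anti_ZL, neg_neg]) _).symm), (D.CL C).comm_S ((D.CH C).S _) (.inl fun v =>
      ((D.CH C).comm_S _ (.inr (D.θ_anti_LH C v)) _).symm)]
  · have := D.continuous_M
    refine c.comp_supp j (K := {q | R ≤ ‖q.1‖ ∧ (∀ p, ‖q.1‖ ≤ κ * D.M p q.1) ∧ ‖q.2‖ ≤ θ * ‖q.1‖})
      ?_ h5 fun t q hq => by simpa only [Set.mem_ofPred_eq, c.R_norm] using hq
    simp only [Set.ofPred_and, Set.ofPred_forall]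
    exact (isClosed_le (by fun_prop) (by fun_prop)).inter ((isClosed_iInter fun p => isClosed_le (by fun_prop)
      (by fun_prop)).inter (isClosed_le (by fun_prop) (by fun_prop)))
  · have := c.comp_flow j hc (t / (2 * Real.pi)) z l
    simp only [c, circ, ch, mul_div_cancel₀ t Real.two_pi_pos.ne'] at this
    refine this.trans ?_
    rw [exp_wt, smul_apply]
    congr 2
    have := Complex.ofReal_ne_zero.2 Real.pi_ne_zero
    push_cast
    field_simp

end Crest.Agent.R330.BL
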