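import Crest.Agent.R330.BL.Comp

/-! # Row 330, block BL: the light inequality for one Fourier component -/

set_option autoImplicit false
set_option linter.unusedSectionVars false
set_option linter.unusedSimpArgs false

noncomputable section

open MeasureTheory Filter Topology
open scoped InnerProductSpace ContDiff Matrix
open Crest.MathPhysics.MatrixQM (GammaNine)

namespace Crest.Agent.R330.BL

theorem int_w {Y F : Type} [NormedAddCommGroup Y] [MeasureSpace Y] [BorelSpace Y] [NormedSpace ℝ Y]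
    [IsFiniteMeasureOnCompacts (volume : Measure Y)] [NormedAddCommGroup F] [NormedSpace ℝ F] {f : Y → F} (hf : Core f)
    {W : Y → ℝ} (hm : Measurable W) (h0 : ∀ q, 0 ≤ W q) {B : ℝ} (h : ∀ q ∈ tsupport f, W q ≤ B) :
    Integrable fun q => W q * ‖f q‖ ^ 2 := by
  have := hf.1.continuous
  refine (int_of_supp hf.2 (h := fun q => B * ‖f q‖ ^ 2) (by fun_prop) fun q hq => by
    simp [image_eq_zero_of_notMem_tsupport hq]).mono' (hm.mul (this.norm.pow 2).measurable).aestronglyMeasurable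
    (Eventually.of_forall fun q => ?_)
  rw [Real.norm_of_nonneg (mul_nonneg (h0 q) (sq_nonneg _))]
  by_cases hq : q ∈ tsupport f
  · exact mul_le_mul_of_nonneg_right (h q hq) (sq_nonneg _)
  · simp [image_eq_zero_of_notMem_tsupport hq]

theorem rp {L r : ℝ} (hL : 0 < L) (hr : 0 < r) (h : r ^ 2 ≤ L ^ 5) : L ^ (-(5 / 2) : ℝ) ≤ 1 / r := by
  rw [Real.rpow_neg hL.le, one_div]
  refine inv_anti₀ hr ((sq_le_sq₀ hr.le (by positivity)).1 ?_)
  rw [← Real.rpow_natCast (L ^ _), ← Real.rpow_mul hL.le]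
  norm_num
  exact_mod_cast h

variable {E Z L H F : Type}
  [NormedAddCommGroup E] [InnerProductSpace ℝ E] [FiniteDimensional ℝ E]
  [NormedAddCommGroup Z] [InnerProductSpace ℝ Z] [FiniteDimensional ℝ Z]
  [NormedAddCommGroup L] [InnerProductSpace ℝ L] [FiniteDimensional ℝ L]
  [NormedAddCommGroup H] [InnerProductSpace ℝ H] [FiniteDimensional ℝ H]
  [NormedAddCommGroup F] [InnerProductSpace ℂ F] [FiniteDimensional ℂ F]
  [MeasurableSpace E] [BorelSpace E] [MeasurableSpace Z] [BorelSpace Z]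
  [MeasurableSpace L] [BorelSpace L] [MeasurableSpace H] [BorelSpace H]
  {P : Type} [Fintype P] {𝔤 : Lie E} (D : Levi 𝔤 Z L H P) (C : Cl (Th E) F) (σ : Spn)

theorem eff_supp {G : GammaNine} {𝒱 : Wts} {κ θ R : ℝ} {f : X Z × X L → F} (hf : D.Eff C G 𝒱 κ θ R f) (hR : 0 < R)
    (q : X Z × X L) (hq : q ∈ tsupport f) : q.1 ≠ 0 ∧ q.1 ∈ D.reg := by
  obtain ⟨h1, h2, -⟩ := hf.2.2.2.2 q hq
  refine ⟨norm_pos_iff.1 (hR.trans_le h1), fun p => lt_of_le_of_ne (Real.sqrt_nonneg _) fun h => ?_⟩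
  have := h2 p
  rw [← h] at this
  linarith

theorem Pi_Ql (ε : ℝ) {f : X Z × X L → F} (hf : Differentiable ℝ f) (h : ∀ q, D.Pi C σ.G q.1 (f q) = f q)
    (q : X Z × X L) : D.Pi C σ.G q.1 (Ql D C σ ε f q) = Ql D C σ ε f q := by
  have h1 : ∀ a x, D.Pi C σ.G q.1 ((D.CL C).θ a x) = (D.CL C).θ a (D.Pi C σ.G q.1 x) := fun a =>
    DFunLike.congr_fun (D.Pi_comm_L C σ.G q.1 a)
  have h2 : ∀ v, D.Pi C σ.G q.1 (fderiv ℝ (fun l => f (q.1, l)) q.2 v) = fderiv ℝ (fun l => f (q.1, l)) q.2 v :=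
    fun v => by
      have h3 : HasFDerivAt (fun l => f (q.1, l)) _ q.2 := (hf.comp (by fun_prop) q.2).hasFDerivAt
      exact DFunLike.congr_fun (((((D.Pi C σ.G q.1).restrictScalars ℝ).hasFDerivAt.comp q.2 h3).congr_of_eventuallyEq
        (Eventually.of_forall fun l => (h (q.1, l)).symm)).unique h3) v
  simp only [Ql, Q2, dirac, map_add, map_sum, ContinuousLinearMap.map_smul, h1, h2, h]

theorem split {𝒱 : Wts} {κ θ R : ℝ} {f : X Z × X L → F} (hf : D.Eff C σ.G 𝒱 κ θ R f) (hR : 0 < R) (ε : ℝ) :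
    Continuous (D.Qlight C σ ε f) ∧ Integrable (fun q => ‖D.Qlight C σ ε f q‖ ^ 2) ∧
      Integrable (fun q => ‖D.Pi C σ.G q.1 (Qc D C σ ε f q)‖ ^ 2) ∧ Integrable (fun q => ‖Ql D C σ ε f q‖ ^ 2) ∧
      ∫ q, ‖D.Qlight C σ ε f q‖ ^ 2 = (∫ q, ‖D.Pi C σ.G q.1 (Qc D C σ ε f q)‖ ^ 2) + ∫ q, ‖Ql D C σ ε f q‖ ^ 2 := by
  have hd := hf.1.1.differentiable (by simp)
  have hw := contDiff_wd D.𝔩 σ ε (f := fun _ => 0) contDiff_const
  have c1 : Continuous (Qc D C σ ε f) := Q1_cont _ _ (wc_smooth σ ε).continuous hf.1.1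
  have c2 : Continuous (Ql D C σ ε f) := Q2_cont _ _ hw.continuous hf.1.1
  have z1 : ∀ q, q ∉ tsupport f → Qc D C σ ε f q = 0 := fun q => Q1_zero _ _ _ hd
  have z2 : ∀ q, q ∉ tsupport f → Ql D C σ ε f q = 0 := fun q => Q2_zero _ _ _ hd
  have c3 : Continuous fun q => D.Pi C σ.G q.1 (Qc D C σ ε f q) :=
    contDiff_zero.1 (contDiff_of_support (isClosed_tsupport f) (D.isOpen_reg.preimage continuous_fst)
      (fun q hq => (eff_supp D C hf hR q hq).2) (fun q hq => by simp [z1 q hq]) (contDiffOn_zero.2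
        (((D.contDiffOn_Pi C σ.G).continuousOn.comp continuousOn_fst fun _ h => h).clm_apply c1.continuousOn)))
  have e : D.Qlight C σ ε f = fun q => D.Pi C σ.G q.1 (Qc D C σ ε f q) + Ql D C σ ε f q := funext fun q => by
    rw [Qlight_eq, map_add, Pi_Ql D C σ ε hd hf.2.1]
  have i1 : Integrable fun q => ‖D.Pi C σ.G q.1 (Qc D C σ ε f q)‖ ^ 2 :=
    int_of_supp hf.1.2 (c3.norm.pow 2).continuousOn fun q hq => by simp [z1 q hq]
  have i2 : Integrable fun q => ‖Ql D C σ ε f q‖ ^ 2 := int_of_supp hf.1.2 (by fun_prop) fun q hq => by simp [z2 q hq]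
  have i3 : Integrable fun q => 2 * (⟪Qc D C σ ε f q, Ql D C σ ε f q⟫_ℂ).re :=
    int_of_supp hf.1.2 (by fun_prop) fun q hq => by simp [z2 q hq]
  have o : ∀ a b, ⟪liftI 16 D.iZ a, liftI 16 D.iL b⟫_ℝ = 0 := fun a b => by
    simp [PiLp.inner_apply, liftI, lift, D.oZL]
  have e3 : ∫ q, (⟪Qc D C σ ε f q, Ql D C σ ε f q⟫_ℂ).re = 0 := cross C
    (c₁ := (liftI 16 D.iZ).toLinearMap ∘ₗ cmap σ.G σ.s) (c₂ := (liftI 16 D.iL).toLinearMap ∘ₗ cmap σ.G σ.s)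
    ((liftI 16 D.iZ).contDiff.comp (wc_smooth σ ε)) ((liftI 16 D.iL).contDiff.comp hw) (fun _ _ => o _ _)
    (fun _ _ => o _ _) (fun _ _ => o _ _) (fun _ _ => o _ _) hf.1
  rw [e]
  refine ⟨c3.add c2, int_of_supp hf.1.2 ((c3.add c2).norm.pow 2).continuousOn fun q hq => by simp [z1 q hq, z2 q hq], i1, i2, ?_⟩
  rw [← add_zero (∫ q, ‖D.Pi C σ.G q.1 (Qc D C σ ε f q)‖ ^ 2), ← mul_zero 2, ← e3, ← integral_const_mul,
    ← integral_add i1 i3, ← integral_add (i1.fun_add i3) i2]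
  refine integral_congr_ae (Eventually.of_forall fun q => ?_)
  by_cases hq : q ∈ tsupport f
  · simp only
    rw [@norm_add_sq ℂ, (Pi_sa D C σ.G (eff_supp D C hf hR q hq).2).isSymmetric.apply_clm, Pi_Ql D C σ ε hd hf.2.1]
    rfl
  · simp [z1 q hq, z2 q hq]

theorem WL_nonneg {a c β ε : ℝ} (ha : 0 ≤ a) (hc : 0 ≤ c) (hβ : 0 ≤ β) (hε : 0 ≤ ε) (lm : ℝ) (z : X Z) (l : X L) :
    0 ≤ D.WL a c β lm ε z l := by
  unfold Levi.WL
  split_ifs <;> positivity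

theorem WL_meas (a c β lm ε : ℝ) : Measurable fun q : X Z × X L => D.WL a c β lm ε q.1 q.2 := by
  have := fun p => (D.continuous_M p).measurable
  have : Measurable fun q : X Z × X L => if lm * ‖q.1‖ ≤ ‖q.2‖ then 1 / ‖q.2‖ ^ 2 else 0 :=
    Measurable.ite (measurableSet_le (by fun_prop) (by fun_prop)) (by fun_prop) measurable_const
  unfold Levi.WL
  fun_prop

theorem WL_le {c β lm ε κ θ g : ℝ} (hβ : 0 ≤ β) (hε : 0 ≤ ε) (hc : c ≤ g) (hg : β ≤ g / 4) {z : X Z} {l : X L}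
    (h1 : 1 ≤ ‖z‖) (h2 : 1 ≤ lm * ‖z‖) (h3 : 4 * (6 / 5 + β * Fintype.card P * κ ^ 2) ≤ g * ‖z‖)
    (h4 : 4 * (6 / 5 + β * Fintype.card P * κ ^ 2) * θ ≤ g) (h5 : θ ≤ 1) (h6 : ∀ p, ‖z‖ ≤ κ * D.M p z)
    (h7 : ‖l‖ ≤ θ * ‖z‖) : D.WL (6 / 5) c β lm ε z l ≤ g * (1 / (1 + ‖l‖ ^ 2) + ε) := by
  have e1 : ∑ p, 1 / D.M p z ^ 2 ≤ Fintype.card P * (κ ^ 2 / ‖z‖ ^ 2) := by
    refine (Finset.sum_le_card_nsmul _ _ _ fun p _ => ?_).trans_eq (nsmul_eq_mul _ _)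
    have : 0 < D.M p z := lt_of_le_of_ne (Real.sqrt_nonneg _) fun h => by
      have := h6 p
      rw [← h] at this
      linarith
    rw [div_le_div_iff₀ (by positivity) (by positivity), one_mul, ← mul_pow]
    exact pow_le_pow_left₀ (norm_nonneg _) (h6 p) 2
  have e2 : β * (if lm * ‖z‖ ≤ ‖l‖ then 1 / ‖l‖ ^ 2 else 0) ≤ g / 2 * (1 / (1 + ‖l‖ ^ 2)) := by
    have : 0 ≤ g := by linarith
    split_ifs with h
    · have h' := h2.trans h
      refine (mul_le_mul_of_nonneg_right hg (by positivity)).trans ?_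
      rw [mul_one_div, mul_one_div, div_le_div_iff₀ (by positivity) (by positivity)]
      nlinarith [mul_nonneg this (sub_nonneg.2 (one_le_pow₀ h' : 1 ≤ ‖l‖ ^ 2))]
    · rw [mul_zero]
      positivity
  set N := 6 / 5 + β * Fintype.card P * κ ^ 2 with hN
  have e3 : N / ‖z‖ ^ 2 ≤ g / 2 * (1 / (1 + ‖l‖ ^ 2)) := by
    have h0 : 0 < N := by positivity
    have h8 : 0 ≤ θ := nonneg_of_mul_nonneg_left ((norm_nonneg _).trans h7) (by linarith)
    have h9 : ‖l‖ ^ 2 ≤ θ * ‖z‖ ^ 2 := by nlinarith [norm_nonneg l, mul_nonneg h8 (sq_nonneg ‖z‖)]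
    rw [mul_one_div, div_le_div_iff₀ (by positivity) (by positivity)]
    nlinarith [mul_le_mul_of_nonneg_left h9 h0.le, mul_le_mul_of_nonneg_right h4 (sq_nonneg ‖z‖),
      mul_le_mul_of_nonneg_right h3 (norm_nonneg z), mul_le_mul_of_nonneg_left h1 h0.le]
  have e4 : N / ‖z‖ ^ 2 = 6 / 5 / ‖z‖ ^ 2 + β * (Fintype.card P * (κ ^ 2 / ‖z‖ ^ 2)) := by rw [hN]; ring
  unfold Levi.WL
  nlinarith [mul_le_mul_of_nonneg_left e1 hβ, mul_le_mul_of_nonneg_right hc hε]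

theorem one (hT : TailIneq D.𝔩 (D.CL C) σ) (hG : GapIneq D.𝔩 (D.CL C) σ) :
    ∃ c β ε₁ : ℝ, 0 < c ∧ 0 < β ∧ 0 < ε₁ ∧ ε₁ ≤ 1 ∧ ∀ κ, 1 ≤ κ → ∃ θ₀ : ℝ, 0 < θ₀ ∧
      ∀ θ, θ ≤ θ₀ → ∀ lm, 0 < lm → ∃ R₀ : ℝ, 0 < R₀ ∧ ∀ R, R₀ ≤ R → ∀ ε k : ℝ, 0 ≤ ε → ε ≤ ε₁ →
        ∀ (𝒱 : Wts) (f : X Z × X L → F), D.Eff C σ.G 𝒱 κ θ R f →
          Integrable (fun q => D.WL (6 / 5) c β lm ε q.1 q.2 * ‖f q‖ ^ 2) ∧
          ((ε = 0 ∨ 0 ≤ k ∧ (V0, k) ∈ 𝒱 ∧ ∃ j : ℤ, ∀ z l, RotAt (D.CL C) σ.G V0 j (fun l => f (z, l)) l) →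
          ∫ q, D.WL (6 / 5) c β lm ε q.1 q.2 * ‖f q‖ ^ 2 ≤ ∫ q, ‖D.Qlight C σ ε f q‖ ^ 2) := by
  obtain ⟨K, hK, hT⟩ := hT
  obtain ⟨g, ε₁, hg, hε₁, hG⟩ := hG
  obtain ⟨β₁, hβ₁, hcm⟩ := cm_ineq D C σ
  obtain ⟨β, hβ, b1, b2, b3⟩ : ∃ β, 0 < β ∧ β ≤ β₁ ∧ β ≤ 1 / (10 * K) ∧ β ≤ g / 4 :=
    ⟨min β₁ (min _ _), by positivity, min_le_left _ _, min_le_of_right_le (min_le_left _ _),
      min_le_of_right_le (min_le_right _ _)⟩
  refine ⟨min (1 / 10) g, β, min 1 ε₁, by positivity, hβ, by positivity, min_le_left _ _, fun κ hκ => ?_⟩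
  set N := 4 * (6 / 5 + β * Fintype.card P * κ ^ 2) with hN
  have hN0 : 0 < N := by positivity
  refine ⟨min 1 (g / N), by positivity, fun θ hθ lm hlm => ⟨1 + N / g + 1 / lm + 16 / lm ^ 5, by positivity,
    fun R hR ε k hε hε' 𝒱 f hf => ?_⟩⟩
  set c := min (1 / 10) g
  have hc : 0 < c := by positivity
  have hz : ∀ z : X Z, R ≤ ‖z‖ → 1 ≤ ‖z‖ ∧ 1 ≤ lm * ‖z‖ ∧ N ≤ g * ‖z‖ ∧ 16 ≤ lm ^ 5 * ‖z‖ := fun z hz => by
    have : 0 < N / g := by positivity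
    have : 0 < 1 / lm := by positivity
    have : 0 < 16 / lm ^ 5 := by positivity
    exact ⟨by linarith, (div_le_iff₀' hlm).1 (by linarith), (div_le_iff₀' hg).1 (by linarith),
      (div_le_iff₀' (by positivity)).1 (by linarith)⟩
  have hW : ∀ q ∈ tsupport f, D.WL (6 / 5) c β lm ε q.1 q.2 ≤ g * (1 / (1 + ‖q.2‖ ^ 2) + ε) := fun q hq => by
    obtain ⟨h1, h2, h3⟩ := hf.2.2.2.2 q hq
    obtain ⟨h4, h5, h6, -⟩ := hz _ h1
    exact WL_le D hβ.le hε (min_le_right _ _) b3 h4 h5 h6 ((le_div_iff₀' hN0).1 (hθ.trans (min_le_right _ _)))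
      (hθ.trans (min_le_left _ _)) h2 h3
  have W0 := WL_nonneg D (by norm_num : (0 : ℝ) ≤ 6 / 5) hc.le hβ.le hε lm
  have iW : Integrable (fun q => D.WL (6 / 5) c β lm ε q.1 q.2 * ‖f q‖ ^ 2) :=
    int_w hf.1 (WL_meas D _ _ _ _ _) (fun q => W0 _ _) (B := g * (1 + ε)) fun q hq => (hW q hq).trans (by
      gcongr
      exact div_le_self zero_le_one (le_add_of_nonneg_right (sq_nonneg _)))
  have hR0 : 0 < R := lt_of_lt_of_le (by positivity) hR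
  obtain ⟨-, -, i1, i2, e⟩ := split D C σ hf hR0 ε
  have hd := hf.1.1.differentiable (by simp)
  have hcl : ∀ z, Cls D.𝔩 (D.CL C) σ.G ∅ fun l => f (z, l) := fun z => ⟨core_snd hf.1 z, hf.2.2.1 z, by simp⟩
  refine ⟨iW, fun h => ?_⟩
  rw [e]
  by_cases hj : ∃ j : ℝ, 1 ≤ j ∧ ∀ z l, RotAt (D.CL C) σ.G V0 j (fun l => f (z, l)) l
  · obtain ⟨j, hj, hr⟩ := hj
    refine le_add_of_nonneg_of_le (integral_nonneg fun q => sq_nonneg _) (fub_snd iW i2 fun z => ?_)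
    refine le_trans ?_ (hG ε j hε (hε'.trans (min_le_right _ _)) hj (fun l => f (z, l))
      ⟨(hcl z).1, (hcl z).2.1, by simpa using hr z⟩)
    have := hf.1.1.continuous
    rw [← integral_const_mul]
    refine integral_mono_of_nonneg (Eventually.of_forall fun l => mul_nonneg (W0 _ _) (sq_nonneg _))
      (int_of_supp (hcl z).1.2 (Continuous.continuousOn (by fun_prop (disch := intros; positivity))) fun l hl => by
        simp [image_eq_zero_of_notMem_tsupport hl]) (Eventually.of_forall fun l => ?_)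
    by_cases hq : (z, l) ∈ tsupport f
    · exact (mul_le_mul_of_nonneg_right (hW _ hq) (sq_nonneg _)).trans_eq (mul_assoc _ _ _)
    · simp [image_eq_zero_of_notMem_tsupport hq]
  have hs := eff_supp D C hf hR0
  have c1 := hf.1.1.continuous
  have iV : Integrable fun q : X Z × X L => (49 / 40 / ‖q.1‖ ^ 2 + ε / 5 + β₁ * ∑ p, 1 / D.M p q.1 ^ 2) * ‖f q‖ ^ 2 := by
    have := D.continuous_M
    refine int_of_supp hf.1.2 (ContinuousOn.mul (.add (.add (continuousOn_const.div (by fun_prop) fun q hq =>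
      pow_ne_zero 2 (norm_ne_zero_iff.2 (hs q hq).1)) continuousOn_const) (continuousOn_const.mul
      (continuousOn_finsetSum _ fun p _ => continuousOn_const.div (by fun_prop) fun q hq =>
      pow_ne_zero 2 ((hs q hq).2 p).ne'))) (by fun_prop)) fun q hq => by simp [image_eq_zero_of_notMem_tsupport hq]
  rw [← add_sub_cancel (∫ q : X Z × X L, (49 / 40 / ‖q.1‖ ^ 2 + ε / 5 + β₁ * ∑ p, 1 / D.M p q.1 ^ 2) * ‖f q‖ ^ 2)
    (∫ q, D.WL (6 / 5) c β lm ε q.1 q.2 * ‖f q‖ ^ 2), ← integral_sub iW iV]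
  refine add_le_add (fub_fst iV i1 fun l => ?_) (fub_snd (iW.sub' iV) i2 fun z => ?_)
  · obtain ⟨m, hm⟩ : ∃ m : ℝ, ε = 0 ∨ 0 ≤ m ∧ ∀ z, fderiv ℝ (fun z => f (z, l)) z (mat V0 z) =
        (D.CZ C).S (mat (sig σ.G V0)) (f (z, l)) + (D.CH C).S (mat (sig σ.G V0)) (f (z, l)) +
          ((m : ℂ) * Complex.I) • f (z, l) := by
      obtain h | ⟨h1, h2, j, h3⟩ := h
      · exact ⟨0, .inl h⟩
      have : (j : ℝ) ≤ 0 := by exact_mod_cast Int.lt_add_one_iff.1 (not_le.1 fun h => hj ⟨j, by exact_mod_cast h, h3⟩)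
      refine ⟨k - j, .inr ⟨by linarith, fun z => ?_⟩⟩
      have h4 := hf.2.2.2.1 _ h2 (z, l)
      have h5 := (d_snd hd (z, l) _).symm.trans (h3 z l)
      rw [D.S_mat, show (mat V0 z, mat V0 l) = (mat V0 z, 0) + (0, mat V0 l) by simp, map_add, h5] at h4
      rw [d_fst hd (z, l), eq_sub_of_add_eq h4]
      simp only [add_apply]
      push_cast
      module
    exact hcm ε m _ hε (core_fst hf.1 l) (fun z => hf.2.1 (z, l)) (fun z hz =>
      hs (z, l) (tsupport_comp_subset_preimage f (Continuous.prodMk_left l) hz)) hm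
  by_cases hR' : R ≤ ‖z‖
  swap
  · have : ∀ l, f (z, l) = 0 := fun l => image_eq_zero_of_notMem_tsupport fun h => hR' (hf.2.2.2.2 _ h).1
    simpa [this] using integral_nonneg fun l => sq_nonneg _
  obtain ⟨h4, h5, -, h6⟩ := hz _ hR'
  have h7 := hT ε _ hε (hε'.trans (min_le_left _ _)) h5 _ (hcl z)
  have h8 := rp (L := lm * ‖z‖) (r := 4 * ‖z‖ ^ 2) (by positivity) (by positivity) (by
    nlinarith [mul_le_mul_of_nonneg_right h6 (by positivity : 0 ≤ ‖z‖ ^ 4)])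
  have i3 : Integrable fun l => (if lm * ‖z‖ ≤ ‖l‖ then 1 / ‖l‖ ^ 2 else 0) * ‖f (z, l)‖ ^ 2 :=
    int_w (hcl z).1 (Measurable.ite (measurableSet_le (by fun_prop) (by fun_prop)) (by fun_prop) measurable_const)
      (fun l => by split_ifs <;> positivity) (B := 1) fun l _ => by
        split_ifs with h
        exacts [div_le_self zero_le_one (one_le_pow₀ (h5.trans h)), zero_le_one]
  have i4 : Integrable fun l => ‖f (z, l)‖ ^ 2 := by
    simpa using int_w (hcl z).1 (W := fun _ => 1) measurable_const (fun _ => zero_le_one) fun _ _ => le_rfl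
  rw [show (fun l => _) = fun l => β * ((if lm * ‖z‖ ≤ ‖l‖ then 1 / ‖l‖ ^ 2 else 0) * ‖f (z, l)‖ ^ 2) -
    (1 / 10 * (1 / (4 * ‖z‖ ^ 2)) + (1 / 5 - c) * ε + (β₁ - β) * ∑ p, 1 / D.M p z ^ 2) * ‖f (z, l)‖ ^ 2 from
    funext fun l => by unfold Levi.WL; ring, integral_sub (i3.const_mul _) (i4.const_mul _), integral_const_mul,
    integral_const_mul]
  have h9 : 0 ≤ ∫ l, ‖f (z, l)‖ ^ 2 := integral_nonneg fun l => sq_nonneg _
  have h10 : 0 ≤ ∫ l, ‖Qe D.𝔩 (D.CL C) σ ε (fun l => f (z, l)) l‖ ^ 2 := integral_nonneg fun l => sq_nonneg _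
  have h11 := (mul_le_mul b2 h7 (integral_nonneg fun l => by split_ifs <;> positivity) (by positivity)).trans_eq
    (show _ = 1 / 10 * _ by rw [← mul_assoc]; congr 1; field_simp)
  have h12 : 0 ≤ (β₁ - β) * ∑ p, 1 / D.M p z ^ 2 := mul_nonneg (sub_nonneg.2 b1) (by positivity)
  change _ ≤ ∫ l, ‖Qe D.𝔩 (D.CL C) σ ε (fun l => f (z, l)) l‖ ^ 2
  nlinarith [mul_nonneg h12 h9, mul_le_mul_of_nonneg_right h8 h9,
    mul_nonneg (mul_nonneg (sub_nonneg.2 (min_le_left (1 / 10) g)) hε) h9]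

end Crest.Agent.R330.BL
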